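import Vale.Agent.P264.Setup

/-!
The correction `Dcor` and the formula `1/phiRef = 1/phiOut + (outer potential)''`.
-/

namespace Vale.Agent.P264.Dict

open Set MeasureTheory Filter
open scoped ContDiff Topology

variable (σ : Shrinker)

theorem S_smoothAt {y : ℝ} (hy : 0 < y) : ContDiffAt ℝ ∞ σ.S y :=
  σ.S_smooth.contDiffAt (Ici_mem_nhds hy)

theorem integrableOn_tail {a : ℝ} (ha : 0 < a) :
    IntegrableOn (fun z => 2 * σ.S z / z ^ 2) (Ioi a) := by
  obtain ⟨C, hC⟩ := σ.S_decay
  have hC0 : 0 ≤ C := by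
    have := (abs_nonneg _).trans (hC 0 le_rfl); simpa using this
  have h := (integrableOn_Ioi_rpow_of_lt (a := -2) (by norm_num) ha).const_mul (2 * C)
  refine Integrable.mono' h ?_ ?_
  · refine ContinuousOn.aestronglyMeasurable ?_ measurableSet_Ioi
    exact ((continuousOn_const.mul (σ.S_smooth.continuousOn.mono
      (Ioi_subset_Ici ha.le))).div (continuousOn_id.pow 2) fun z hz => by
        have : (0:ℝ) < z := ha.trans hz
        positivity)
  · rw [ae_restrict_iff' measurableSet_Ioi]
    refine Eventually.of_forall fun z hz => ?_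
    have hz0 : 0 < z := ha.trans hz
    have hb : |σ.S z| ≤ C := (hC z hz0.le).trans
      (div_le_self hC0 (by linarith))
    rw [Real.norm_eq_abs, abs_div, abs_mul, abs_two, abs_of_pos (by positivity : 0 < z ^ 2),
      Real.rpow_neg hz0.le, Real.rpow_two, ← div_eq_mul_inv]
    gcongr

/-- The tail integral. -/
noncomputable def tailI (y : ℝ) : ℝ := ∫ z in Ioi y, 2 * σ.S z / z ^ 2

theorem hasDerivAt_tailI {y : ℝ} (hy : 0 < y) :
    HasDerivAt (tailI σ) (-(2 * σ.S y / y ^ 2)) y := by
  have ha : 0 < y / 2 := by positivity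
  have hc : ContinuousOn (fun z => 2 * σ.S z / z ^ 2) (Ioi 0) :=
    (continuousOn_const.mul (σ.S_smooth.continuousOn.mono Ioi_subset_Ici_self)).div
      (continuousOn_id.pow 2) fun z (hz : 0 < z) => by positivity
  have heq : tailI σ =ᶠ[𝓝 y] fun v => tailI σ (y / 2)
      - ∫ z in (y / 2)..v, 2 * σ.S z / z ^ 2 := by
    filter_upwards [Ioi_mem_nhds (half_lt_self hy)] with v hv
    rw [← intervalIntegral.integral_Ioi_sub_Ioi (integrableOn_tail σ ha) hv.le]
    simp only [tailI]; ring
  refine HasDerivAt.congr_of_eventuallyEq ?_ heq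
  have := intervalIntegral.integral_hasDerivAt_right (a := y / 2) (b := y)
    (f := fun z => 2 * σ.S z / z ^ 2)
    ((hc.mono fun z hz => by
      rw [uIcc_of_le (by linarith)] at hz
      exact lt_of_lt_of_le ha hz.1).intervalIntegrable)
    (hc.stronglyMeasurableAtFilter isOpen_Ioi y hy) (hc.continuousAt (Ioi_mem_nhds hy))
  exact this.const_sub _

theorem hasDerivAt_Dcor {y : ℝ} (hy : 0 < y) :
    HasDerivAt (Dcor σ) ((Dcor σ y - 2 * σ.S y) / y) y := by
  have h := (hasDerivAt_id y).mul (hasDerivAt_tailI σ hy)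
  refine (h.congr_deriv ?_)
  simp only [id, Dcor, tailI]
  field_simp
  ring

theorem contDiffAt_tailI {y : ℝ} (hy : 0 < y) : ContDiffAt ℝ ∞ (tailI σ) y := by
  have h : ContDiffOn ℝ ∞ (tailI σ) (Ioi 0) := by
    rw [contDiffOn_infty_iff_deriv_of_isOpen isOpen_Ioi]
    refine ⟨fun z hz => (hasDerivAt_tailI σ hz).differentiableAt.differentiableWithinAt, ?_⟩
    refine ContDiffOn.congr ?_ fun z hz => (hasDerivAt_tailI σ hz).deriv
    exact ((contDiffOn_const.mul (σ.S_smooth.mono Ioi_subset_Ici_self)).div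
      (contDiffOn_id.pow 2) fun z (hz : 0 < z) => by positivity).neg
  exact h.contDiffAt (Ioi_mem_nhds hy)

theorem contDiffAt_Dcor {y : ℝ} (hy : 0 < y) : ContDiffAt ℝ ∞ (Dcor σ) y :=
  contDiffAt_id.mul (contDiffAt_tailI σ hy)

theorem deriv2_Dcor {y : ℝ} (hy : 0 < y) :
    deriv (deriv (Dcor σ)) y = (1 / σ.q y - 1 / σ.c) / y := by
  have heq : deriv (Dcor σ) =ᶠ[𝓝 y] fun z => (Dcor σ z - 2 * σ.S z) / z := by
    filter_upwards [Ioi_mem_nhds hy] with z hz
    exact (hasDerivAt_Dcor σ hz).deriv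
  rw [heq.deriv_eq]
  have hS : HasDerivAt σ.S (1 / (2 * σ.c) - 1 / (2 * σ.q y)) y := by
    rw [← σ.shrink y hy]
    exact ((S_smoothAt σ hy).differentiableAt (by simp)).hasDerivAt
  have h := ((hasDerivAt_Dcor σ hy).sub (hS.const_mul 2)).div (hasDerivAt_id y) hy.ne'
  refine (h.congr_deriv ?_).deriv
  simp only [id, Pi.sub_apply]
  field_simp [hy.ne', σ.c_pos.ne', (σ.q_pos y hy.le).ne']
  ring

/-- The outer correction potential at scale `r = sqrt (1 - t)`. -/
noncomputable def outPot (L r x : ℝ) : ℝ := chiL L x * (r * Dcor σ (x / r))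

theorem chiL_smooth (L : ℝ) : ContDiff ℝ ∞ (chiL L) :=
  Real.smoothTransition.contDiff.comp (by fun_prop)

theorem chiL_eq_one {L x : ℝ} (hL : 0 < L) (hx : x ≤ L / 4) : chiL L x = 1 := by
  refine Real.smoothTransition.one_of_one_le ?_
  have : 4 * x / L ≤ 1 := (div_le_one hL).2 (by linarith)
  linarith

theorem chiL_eq_zero {L x : ℝ} (hL : 0 < L) (hx : L / 2 ≤ x) : chiL L x = 0 := by
  refine Real.smoothTransition.zero_of_nonpos ?_
  have : 2 ≤ 4 * x / L := (le_div_iff₀ hL).2 (by linarith)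
  linarith

theorem phiOut_pos {L x : ℝ} (hx : x ∈ Ioo 0 L) : 0 < phiOut σ L x := by
  unfold phiOut
  have h0 : 0 ≤ chiL L x := Real.smoothTransition.nonneg _
  have h1 : chiL L x ≤ 1 := Real.smoothTransition.le_one _
  have a : 0 < σ.c * x := mul_pos σ.c_pos hx.1
  have b : 0 < L - x := sub_pos.2 hx.2
  rcases h0.eq_or_lt with h | h
  · rw [← h]; simpa using b
  · have := mul_pos h a
    nlinarith

theorem contDiffAt_outPot {L r x : ℝ} (hr : 0 < r) (hx : 0 < x) :
    ContDiffAt ℝ ∞ (outPot σ L r) x :=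
  (chiL_smooth L).contDiffAt.mul (contDiffAt_const.mul
    ((contDiffAt_Dcor σ (div_pos hx hr)).comp x (contDiffAt_id.div_const r)))

theorem deriv2_scaled {r x : ℝ} (hr : 0 < r) (hx : 0 < x) :
    deriv (deriv (fun z => r * Dcor σ (z / r))) x = (1 / σ.q (x / r) - 1 / σ.c) / x := by
  have h1 : deriv (fun z => r * Dcor σ (z / r)) =ᶠ[𝓝 x] fun z => deriv (Dcor σ) (z / r) := by
    filter_upwards [Ioi_mem_nhds hx] with z hz
    have := (((contDiffAt_Dcor σ (div_pos hz hr)).differentiableAt (by simp)).hasDerivAt.comp z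
      ((hasDerivAt_id z).div_const r)).const_mul r
    refine (this.congr_deriv ?_).deriv
    field_simp
  rw [h1.deriv_eq]
  have hd : DifferentiableAt ℝ (deriv (Dcor σ)) (x / r) := by
    have : ContDiffAt ℝ 2 (Dcor σ) (x / r) :=
      (contDiffAt_Dcor σ (div_pos hx hr)).of_le (WithTop.coe_le_coe.2 le_top)
    exact (this.derivWithin (m := 1) (by norm_num)).differentiableAt (by simp)
  have := hd.hasDerivAt.comp x ((hasDerivAt_id x).div_const r)
  refine (this.congr_deriv ?_).deriv
  rw [deriv2_Dcor σ (div_pos hx hr)]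
  field_simp

/-- For a function vanishing on a half line, the second derivative vanishes there. -/
theorem deriv2_eq_zero_of_vanish {h : ℝ → ℝ} {a : ℝ} (hh : ContDiffAt ℝ 2 h a)
    (h0 : ∀ᶠ z in 𝓝 a, z ≤ a → h z = 0) : deriv (deriv h) a = 0 := by
  have hd : ∀ᶠ z in 𝓝 a, DifferentiableAt ℝ h z := by
    filter_upwards [hh.eventually (by simp)] with z hz
    exact hz.differentiableAt (by simp)
  have h1 : ∀ᶠ z in 𝓝 a, z ≤ a → deriv h z = 0 := by
    filter_upwards [eventually_eventually_nhds.2 h0, hd] with z hz hdz hza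
    have hw : HasDerivWithinAt h 0 (Iic a) z := by
      refine (hasDerivWithinAt_const z (Iic a) (0:ℝ)).congr_of_eventuallyEq ?_ ?_
      · exact eventually_nhdsWithin_iff.2 hz
      · exact hz.self_of_nhds hza
    exact (uniqueDiffOn_Iic a z hza).eq_deriv _ hdz.hasDerivAt.hasDerivWithinAt hw
  have hd2 : DifferentiableAt ℝ (deriv h) a :=
    (hh.derivWithin (m := 1) (by norm_num)).differentiableAt (by simp)
  have hw : HasDerivWithinAt (deriv h) 0 (Iic a) a := by
    refine (hasDerivWithinAt_const a (Iic a) (0:ℝ)).congr_of_eventuallyEq ?_ ?_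
    · exact eventually_nhdsWithin_iff.2 h1
    · exact h1.self_of_nhds le_rfl
  exact (uniqueDiffOn_Iic a a (mem_Iic.2 le_rfl)).eq_deriv _ hd2.hasDerivAt.hasDerivWithinAt hw

theorem deriv2_outPot_inner {L r x : ℝ} (hL : 0 < L) (hr : 0 < r) (hx : 0 < x) (hx4 : x ≤ L / 4) :
    deriv (deriv (outPot σ L r)) x = deriv (deriv (fun z => r * Dcor σ (z / r))) x := by
  set g := fun z => r * Dcor σ (z / r) with hg
  have hgs : ContDiffAt ℝ ∞ g x :=
    contDiffAt_const.mul ((contDiffAt_Dcor σ (div_pos hx hr)).comp x (contDiffAt_id.div_const r))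
  have hos := contDiffAt_outPot σ (L := L) hr hx
  rcases hx4.lt_or_eq with h | h
  · refine Filter.EventuallyEq.deriv_eq (Filter.EventuallyEq.deriv ?_)
    filter_upwards [Iio_mem_nhds h] with z hz
    simp [outPot, hg, chiL_eq_one hL hz.le]
  · have hz := deriv2_eq_zero_of_vanish (h := fun z => outPot σ L r z - g z) (a := x)
      ((hos.sub hgs).of_le (WithTop.coe_le_coe.2 le_top))
      (Eventually.of_forall fun z hz => by simp [outPot, hg, chiL_eq_one hL (hz.trans_eq h)])
    have e1 : deriv (fun z => outPot σ L r z - g z) =ᶠ[𝓝 x]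
        fun z => deriv (outPot σ L r) z - deriv g z := by
      filter_upwards [hos.of_le (m := 1) (by simp) |>.eventually (by simp),
        hgs.of_le (m := 1) (by simp) |>.eventually (by simp)] with z a b
      exact deriv_sub (a.differentiableAt (by simp)) (b.differentiableAt (by simp))
    rw [e1.deriv_eq, deriv_fun_sub] at hz
    · linarith
    · exact ((hos.of_le (m := 2) (WithTop.coe_le_coe.2 le_top)).derivWithin (m := 1)
        (by norm_num)).differentiableAt (by simp)
    · exact ((hgs.of_le (m := 2) (WithTop.coe_le_coe.2 le_top)).derivWithin (m := 1)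
        (by norm_num)).differentiableAt (by simp)

/-- The defining formula of the reference, valid on the whole interval. -/
theorem one_div_phiRef {L t x : ℝ} (ht : t < 1) (hx : x ∈ Ioo 0 L) :
    1 / phiRef σ L t x = 1 / phiOut σ L x
      + deriv (deriv (outPot σ L (Real.sqrt (1 - t)))) x := by
  have hr : 0 < Real.sqrt (1 - t) := Real.sqrt_pos.2 (by linarith)
  have hL : 0 < L := hx.1.trans hx.2
  have hp := phiOut_pos σ hx
  unfold phiRef
  split_ifs with h
  · rw [deriv2_outPot_inner σ hL hr hx.1 h, deriv2_scaled σ hr hx.1]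
    unfold phiOut
    rw [chiL_eq_one hL h]
    have hq := σ.q_pos (x / Real.sqrt (1 - t)) (div_nonneg hx.1.le hr.le)
    field_simp [hx.1.ne', σ.c_pos.ne', hq.ne']
    ring
  · show 1 / (phiOut σ L x / (1 + phiOut σ L x * deriv (deriv (outPot σ L _)) x)) = _
    rw [one_div_div, add_div, mul_div_cancel_left₀ _ hp.ne']

end Vale.Agent.P264.Dict
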