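import Vale.Agent.P264.Setup

/-!
Frozen statements relating a flow to potentials, and the derivative of weighted norms.
-/

namespace Vale.Agent.P264.Dict

open Set
open scoped ContDiff

/-- Every flow has a potential relative to the reference, with any initial potential whose second
derivative is the initial difference of `1/φ`. -/
def RelPotTarget : Prop :=
  ∀ (σ : Shrinker), ∃ L₀ : ℝ, 0 < L₀ ∧ ∀ L : ℝ, L₀ ≤ L →
    ∀ (φ₀ p : ℝ → ℝ) (φ : ℝ → ℝ → ℝ), IsFlow L 1 φ₀ φ → ContDiff ℝ ∞ p →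
      (∀ x ∈ Ioo 0 L, deriv (deriv p) x = 1 / φ₀ x - 1 / phiRef σ L 0 x) →
      ∃ w, RelPot σ L φ w ∧ ∀ x ∈ Icc 0 L, w 0 x = p x

/-- The difference of two relative potentials solves the homogeneous equation. -/
def DiffPotTarget : Prop :=
  ∀ (σ : Shrinker) (L : ℝ) (φ₁ φ₂ w₁ w₂ : ℝ → ℝ → ℝ) (φ₀₁ φ₀₂ : ℝ → ℝ), 0 < L →
    IsFlow L 1 φ₀₁ φ₁ → IsFlow L 1 φ₀₂ φ₂ →
    ContDiffOn ℝ ∞ (Function.uncurry (phiRef σ L)) (Ico 0 1 ×ˢ Icc 0 L) →
    (∀ t ∈ Ico (0:ℝ) 1, ∀ x ∈ Ioo 0 L, 0 < phiRef σ L t x) →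
    RelPot σ L φ₁ w₁ → RelPot σ L φ₂ w₂ →
    Pot L (fun t x => φ₁ t x * φ₂ t x) (fun _ _ => 0) (fun t x => w₁ t x - w₂ t x)

/-- The rescaled equation. -/
def SnapEqnTarget : Prop :=
  ∀ (L : ℝ) (a f w : ℝ → ℝ → ℝ), 0 < L → Pot L a f w →
    ∀ s : ℝ, 0 < s → ∀ y ∈ Ioo 0 (Ys L s),
      deriv (fun r => snap w r y) s = drift (snap w s) y
        - dst (fun z => (Real.exp s * a (tof s) (Real.exp (-s / 2) * z))
            * deriv (deriv (snap w s)) z) y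
        + Real.exp (-s / 2) * f (tof s) (Real.exp (-s / 2) * y)

/-- Derivative of a weighted norm with a cutoff moving like `exp (l s)`; the moving endpoint and
the transport cancel. -/
def NormDerivTarget : Prop :=
  ∀ (L : ℝ) (a f w : ℝ → ℝ → ℝ), 0 < L → Pot L a f w →
    ∀ (j : ℕ) (l : ℝ) (κ : ℝ → ℝ), ContDiff ℝ ∞ κ → ∀ s : ℝ, 0 < s →
      HasDerivAt (fun r => wsq j 8 (fun y => κ (y * Real.exp (-l * r))) (Ys L r) (snap w r))
        ((∫ y in (0:ℝ)..Ys L s, 2 * κ (y * Real.exp (-l * s)) ^ 8 * rho j y * snap w s y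
            * (deriv (fun r => snap w r y) s - drift (snap w s) y))
          + (∫ y in (0:ℝ)..Ys L s, κ (y * Real.exp (-l * s)) ^ 8 * rho j y * snap w s y ^ 2
            * ((6 - 2 * j * y ^ 2 / (1 + y ^ 2)) / 2))
          + (∫ y in (0:ℝ)..Ys L s, (4 - 8 * l) * y * κ (y * Real.exp (-l * s)) ^ 7
            * (deriv κ (y * Real.exp (-l * s)) * Real.exp (-l * s))
            * rho j y * snap w s y ^ 2)) s

end Vale.Agent.P264.Dict
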