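import Vale.Agent.P264.Setup
import Vale.Agent.P264.Calc.Param
import Vale.Agent.P264.Calc.Slices

/-!
Smooth extension of the scalar curvature of a flow up to both ends of the momentum interval.
-/

namespace Vale.Agent.P264.Dict

open Set MeasureTheory intervalIntegral Filter
open scoped ContDiff Topology
open Calc

/-- Second space derivative on the closed rectangle. -/
noncomputable def dxx (L : ℝ) (φ : ℝ → ℝ → ℝ) (t x : ℝ) : ℝ :=
  pdX (Icc 0 1) (Icc 0 L) (pdX (Icc 0 1) (Icc 0 L) φ) t x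

/-- The scalar curvature, smooth up to both ends. -/
noncomputable def scalExt (L : ℝ) (φ : ℝ → ℝ → ℝ) (t x : ℝ) : ℝ :=
  -dxx L φ t x - ∫ u in (0:ℝ)..1, (56 - 42 * u) * dxx L φ t (u * x)

variable {L : ℝ} {φ₀ : ℝ → ℝ} {φ : ℝ → ℝ → ℝ}

theorem flow_smooth2 (h : IsFlow L 1 φ₀ φ) : Smooth2 (Icc 0 1) (Icc 0 L) φ := h.smooth

theorem dxx_smooth2 (hL : 0 < L) (h : IsFlow L 1 φ₀ φ) :
    Smooth2 (Icc 0 1) (Icc 0 L) (dxx L φ) :=
  ((flow_smooth2 h).pdX (uniqueDiffOn_Icc zero_lt_one) (uniqueDiffOn_Icc hL)).pdX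
    (uniqueDiffOn_Icc zero_lt_one) (uniqueDiffOn_Icc hL)

theorem mul_mem_Icc {u x : ℝ} (hu : u ∈ Icc (0:ℝ) 1) (hx : x ∈ Icc 0 L) : u * x ∈ Icc 0 L :=
  ⟨mul_nonneg hu.1 hx.1, le_trans (mul_le_of_le_one_left hx.1 hu.2) hx.2⟩

theorem scalExt_smooth2 (hL : 0 < L) (h : IsFlow L 1 φ₀ φ) :
    Smooth2 (Icc 0 1) (Icc 0 L) (scalExt L φ) := by
  refine (dxx_smooth2 hL h).neg.sub ?_
  refine contDiffOn_param (g := fun p : ℝ × (ℝ × ℝ) => (56 - 42 * p.1) * dxx L φ p.2.1 (p.1 * p.2.2))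
    ((convex_Icc 0 1).prod (convex_Icc 0 L))
    ((uniqueDiffOn_Icc zero_lt_one).prod (uniqueDiffOn_Icc hL)) ?_ ?_
  · exact fun z _ => ⟨1, zero_lt_one, (isCompact_Icc.prod isCompact_Icc).inter_left
      Metric.isClosed_closedBall⟩
  · refine (contDiffOn_const.sub (contDiffOn_const.mul contDiffOn_fst)).mul ?_
    refine (dxx_smooth2 hL h).comp (s := Icc (0:ℝ) 1 ×ˢ (Icc 0 1 ×ˢ Icc 0 L))
      (f := fun p : ℝ × (ℝ × ℝ) => (p.2.1, p.1 * p.2.2)) (by fun_prop) ?_
    exact fun p hp => ⟨hp.2.1, mul_mem_Icc hp.1 hp.2.2⟩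

theorem scalExt_eq (hL : 0 < L) (h : IsFlow L 1 φ₀ φ) {t x : ℝ} (ht : t ∈ Icc (0:ℝ) 1)
    (hx : x ∈ Ioo 0 L) : scal (φ t) x = scalExt L φ t x := by
  set g := φ t with hg
  set g1 := pdX (Icc 0 1) (Icc 0 L) φ t with hg1
  set g2 := dxx L φ t with hg2
  have hS := flow_smooth2 h
  have hu1 : UniqueDiffOn ℝ (Icc (0:ℝ) 1) := uniqueDiffOn_Icc zero_lt_one
  have hu2 : UniqueDiffOn ℝ (Icc (0:ℝ) L) := uniqueDiffOn_Icc hL
  have d1 : ∀ z ∈ Icc 0 L, HasDerivWithinAt g (g1 z) (Icc 0 L) z := fun z hz =>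
    hS.hasDerivWithinAt_x ht hz
  have d2 : ∀ z ∈ Icc 0 L, HasDerivWithinAt g1 (g2 z) (Icc 0 L) z := fun z hz =>
    (hS.pdX hu1 hu2).hasDerivWithinAt_x ht hz
  have hxL : x ∈ Icc 0 L := Ioo_subset_Icc_self hx
  have hcg : ContinuousOn g (Icc 0 L) := fun z hz => (d1 z hz).continuousWithinAt
  have hcg1 : ContinuousOn g1 (Icc 0 L) := fun z hz => (d2 z hz).continuousWithinAt
  have hcg2 : ContinuousOn g2 (Icc 0 L) := ((dxx_smooth2 hL h).slice_x ht).continuousOn
  have hmaps : MapsTo (fun u => u * x) (Icc 0 1) (Icc 0 L) := fun u hu => mul_mem_Icc hu hxL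
  have hcont : ContinuousOn (fun u => g2 (u * x)) (Icc 0 1) := hcg2.comp (by fun_prop) hmaps
  have hinner : ∀ u ∈ Ioo (0:ℝ) 1, Icc 0 L ∈ 𝓝 (u * x) := fun u hu =>
    Icc_mem_nhds (mul_pos hu.1 hx.1) (lt_of_le_of_lt (mul_le_of_le_one_left hxL.1 hu.2.le) hx.2)
  have e1 : ∫ u in (0:ℝ)..1, x * g2 (u * x) = g1 x - g1 0 := by
    have := integral_eq_sub_of_hasDerivAt_of_le (f := fun u => g1 (u * x))
      (f' := fun u => x * g2 (u * x)) zero_le_one (hcg1.comp (by fun_prop) hmaps) ?_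
      ((continuousOn_const.mul hcont).intervalIntegrable_of_Icc zero_le_one)
    · simpa using this
    · intro u hu
      have := ((d2 _ (hmaps (Ioo_subset_Icc_self hu))).hasDerivAt (hinner u hu)).comp u
        ((hasDerivAt_id u).mul_const x)
      simpa [Function.comp_def, mul_comm] using this
  have e2 : ∫ u in (0:ℝ)..1, u * (x ^ 2 * g2 (u * x)) = (x * g1 x - g x) - (-g 0) := by
    have := integral_eq_sub_of_hasDerivAt_of_le (f := fun u => u * (x * g1 (u * x)) - g (u * x))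
      (f' := fun u => u * (x ^ 2 * g2 (u * x))) zero_le_one
      ((continuousOn_id.mul (continuousOn_const.mul (hcg1.comp (by fun_prop) hmaps))).sub
        (hcg.comp (by fun_prop) hmaps)) ?_
      ((continuousOn_id.mul (continuousOn_const.mul hcont)).intervalIntegrable_of_Icc zero_le_one)
    · simpa using this
    · intro u hu
      have a1 := ((d2 _ (hmaps (Ioo_subset_Icc_self hu))).hasDerivAt (hinner u hu)).comp u
        ((hasDerivAt_id u).mul_const x)
      have a0 := ((d1 _ (hmaps (Ioo_subset_Icc_self hu))).hasDerivAt (hinner u hu)).comp u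
        ((hasDerivAt_id u).mul_const x)
      have := ((hasDerivAt_id u).mul (a1.const_mul x)).sub a0
      convert this using 1
      · funext v; simp
      · simp only [id, Function.comp_def]; ring
  have hP := h.profile t ht
  have hg0 : g 0 = 0 := hP.left
  have hg10 : g1 0 = 1 := by
    rw [hg1, ← hS.derivWithin_x hu2 ht (left_mem_Icc.2 hL.le)]; exact hP.slope_left
  have i1 : ∫ u in (0:ℝ)..1, g2 (u * x) = (g1 x - 1) / x := by
    rw [intervalIntegral.integral_const_mul, hg10] at e1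
    field_simp [hx.1.ne']
    linarith
  have i2 : ∫ u in (0:ℝ)..1, u * g2 (u * x) = (x * g1 x - g x) / x ^ 2 := by
    have : ∫ u in (0:ℝ)..1, u * (x ^ 2 * g2 (u * x))
        = x ^ 2 * ∫ u in (0:ℝ)..1, u * g2 (u * x) := by
      rw [← intervalIntegral.integral_const_mul]; congr 1; funext u; ring
    rw [this, hg0] at e2
    field_simp [hx.1.ne']
    linarith
  have hii1 := hcont.intervalIntegrable_of_Icc (μ := volume) zero_le_one
  have hii2 : IntervalIntegrable (fun u => u * g2 (u * x)) volume 0 1 :=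
    (continuousOn_id.mul hcont).intervalIntegrable_of_Icc zero_le_one
  have hint : (∫ u in (0:ℝ)..1, (56 - 42 * u) * g2 (u * x))
      = 56 * ((g1 x - 1) / x) - 42 * ((x * g1 x - g x) / x ^ 2) := by
    rw [← i1, ← i2, ← intervalIntegral.integral_const_mul, ← intervalIntegral.integral_const_mul,
      ← intervalIntegral.integral_sub (hii1.const_mul 56) (hii2.const_mul 42)]
    congr 1; funext u; ring
  have hnx : Icc 0 L ∈ 𝓝 x := Icc_mem_nhds hx.1 hx.2
  have hd1 : ∀ᶠ z in 𝓝 x, HasDerivAt g (g1 z) z := by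
    filter_upwards [eventually_mem_nhds_iff.2 hnx] with z hz
    exact hS.hasDerivAt_x ht hz
  have hfd : deriv (fun y => y ^ 7 * g y) =ᶠ[𝓝 x] fun z => 7 * z ^ 6 * g z + z ^ 7 * g1 z := by
    filter_upwards [hd1] with z hz
    exact (((hasDerivAt_pow 7 z).mul hz).congr_deriv (by norm_num)).deriv
  have hdd : deriv (deriv (fun y => y ^ 7 * g y)) x
      = 42 * x ^ 5 * g x + 14 * x ^ 6 * g1 x + x ^ 7 * g2 x := by
    rw [hfd.deriv_eq]
    refine HasDerivAt.deriv ?_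
    have a := ((hasDerivAt_pow 6 x).const_mul 7).mul hd1.self_of_nhds
    have b := (hasDerivAt_pow 7 x).mul ((d2 x hxL).hasDerivAt hnx)
    refine (a.add b).congr_deriv ?_
    norm_num; ring
  unfold scal scalExt
  rw [hdd]
  show _ = -g2 x - ∫ u in (0:ℝ)..1, (56 - 42 * u) * g2 (u * x)
  rw [hint]
  field_simp [hx.1.ne']
  ring

end Vale.Agent.P264.Dict
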