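import Vale.Agent.P264.Dict.Targets
import Vale.Agent.P264.Dict.ScalExt
import Vale.Agent.P264.Dict.Outer
import Vale.Agent.P264.Middle.Targets

/-!
Existence of the potential of a flow relative to the reference.
-/

namespace Vale.Agent.P264.Dict

open Set MeasureTheory intervalIntegral Filter
open scoped ContDiff Topology
open Calc

variable {σ : Shrinker} {L : ℝ} {φ₀ : ℝ → ℝ} {φ : ℝ → ℝ → ℝ}

theorem refS_smooth (σ : Shrinker) (L : ℝ) :
    Smooth2 (Ico 0 1) (Icc 0 L) (refS σ L) := by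
  have hr : ContDiffOn ℝ ∞ (fun p : ℝ × ℝ => Real.sqrt (1 - p.1)) (Ico 0 1 ×ˢ Icc 0 L) :=
    (contDiffOn_const.sub contDiffOn_fst).sqrt fun p hp => by
      have := hp.1.2; simp only [ne_eq, sub_eq_zero]; exact this.ne'
  have hne : ∀ p ∈ Ico (0:ℝ) 1 ×ˢ Icc (0:ℝ) L, Real.sqrt (1 - p.1) ≠ 0 := fun p hp =>
    (Real.sqrt_pos.2 (sub_pos.2 hp.1.2)).ne'
  refine ((chiL_smooth L).comp_contDiffOn contDiffOn_snd).mul ?_
  refine (σ.S_smooth.comp (contDiffOn_snd.div hr hne) ?_).div hr hne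
  exact fun p hp => div_nonneg hp.2.1 (Real.sqrt_nonneg _)

/-- The source of the relative potential. -/
noncomputable def srcW (σ : Shrinker) (L : ℝ) (φ : ℝ → ℝ → ℝ) (t x : ℝ) : ℝ :=
  refS σ L t x - scalExt L φ t x

theorem srcW_smooth (hL : 0 < L) (h : IsFlow L 1 φ₀ φ) :
    Smooth2 (Ico 0 1) (Icc 0 L) (srcW σ L φ) :=
  (refS_smooth σ L).sub ((scalExt_smooth2 hL h).mono (prod_mono Ico_subset_Icc_self subset_rfl))

theorem timeInt_smooth {f : ℝ → ℝ → ℝ} (hL : 0 < L) (hf : Smooth2 (Ico 0 1) (Icc 0 L) f) :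
    Smooth2 (Ico 0 1) (Icc 0 L) (fun t x => t * ∫ u in (0:ℝ)..1, f (u * t) x) := by
  refine contDiffOn_fst.mul ?_
  refine contDiffOn_param (g := fun p : ℝ × (ℝ × ℝ) => f (p.1 * p.2.1) p.2.2)
    ((convex_Ico 0 1).prod (convex_Icc 0 L))
    ((uniqueDiffOn_Ico 0 1).prod (uniqueDiffOn_Icc hL)) ?_ ?_
  · rintro ⟨t, x⟩ ⟨ht, hx⟩
    refine ⟨(1 - t) / 2, by linarith [ht.2], ?_⟩
    have : Metric.closedBall (t, x) ((1 - t) / 2) ∩ (Ico 0 1 ×ˢ Icc 0 L)
        = Metric.closedBall (t, x) ((1 - t) / 2) ∩ (Icc 0 ((1 + t) / 2) ×ˢ Icc 0 L) := by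
      ext ⟨a, b⟩
      simp only [mem_inter_iff, Metric.mem_closedBall, Prod.dist_eq, max_le_iff, mem_prod, mem_Ico,
        mem_Icc, Real.dist_eq, abs_le]
      have := ht.2
      constructor
      · rintro ⟨⟨⟨a1, a2⟩, h2⟩, ⟨a3, a4⟩, h3⟩
        exact ⟨⟨⟨a1, a2⟩, h2⟩, ⟨a3, by linarith⟩, h3⟩
      · rintro ⟨⟨⟨a1, a2⟩, h2⟩, ⟨a3, a4⟩, h3⟩
        exact ⟨⟨⟨a1, a2⟩, h2⟩, ⟨a3, by linarith⟩, h3⟩
    rw [this]
    exact (isCompact_Icc.prod isCompact_Icc).inter_left Metric.isClosed_closedBall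
  · refine hf.comp (s := Icc (0:ℝ) 1 ×ˢ (Ico 0 1 ×ˢ Icc 0 L))
      (f := fun p : ℝ × (ℝ × ℝ) => (p.1 * p.2.1, p.2.2)) (by fun_prop) ?_
    rintro ⟨u, t, x⟩ ⟨hu, ht, hx⟩
    exact ⟨⟨mul_nonneg hu.1 ht.1, (mul_le_of_le_one_left ht.1 hu.2).trans_lt ht.2⟩, hx⟩

theorem timeInt_eq (f : ℝ → ℝ → ℝ) (t x : ℝ) :
    (t * ∫ u in (0:ℝ)..1, f (u * t) x) = ∫ r in (0:ℝ)..t, f r x := by
  have := intervalIntegral.smul_integral_comp_mul_right (a := 0) (b := 1) (fun r => f r x) t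
  simpa using this

theorem hasDerivAt_timeInt {f : ℝ → ℝ → ℝ} (hf : Smooth2 (Ico 0 1) (Icc 0 L) f) {t x : ℝ}
    (ht : t ∈ Ioo (0:ℝ) 1) (hx : x ∈ Icc 0 L) :
    HasDerivAt (fun v => ∫ r in (0:ℝ)..v, f r x) (f t x) t := by
  have hc : ContinuousOn (fun r => f r x) (Ico 0 1) := (hf.slice_t hx).continuousOn
  refine intervalIntegral.integral_hasDerivAt_right ?_ ?_ ?_
  · refine (hc.mono ?_).intervalIntegrable
    rw [uIcc_of_le ht.1.le]
    exact Icc_subset_Ico_right ht.2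
  · exact (hc.mono Ioo_subset_Ico_self).stronglyMeasurableAtFilter isOpen_Ioo t ht
  · exact hc.continuousAt (Ico_mem_nhds ht.1 ht.2)

theorem hasDerivAt_spaceInt {f : ℝ → ℝ → ℝ} (hL : 0 < L) (hf : Smooth2 (Ico 0 1) (Icc 0 L) f)
    {t x : ℝ} (ht : t ∈ Ico (0:ℝ) 1) (hx : x ∈ Ioo 0 L) :
    HasDerivAt (fun z => ∫ r in (0:ℝ)..t, f r z)
      (∫ r in (0:ℝ)..t, pdX (Ico 0 1) (Icc 0 L) f r x) x := by
  have hu1 : UniqueDiffOn ℝ (Ico (0:ℝ) 1) := uniqueDiffOn_Ico 0 1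
  have hX := hf.pdX hu1 (uniqueDiffOn_Icc hL)
  obtain ⟨B, hB⟩ := (isCompact_Icc (a := (0:ℝ)) (b := t)).prod
    (isCompact_Icc (a := (0:ℝ)) (b := L)) |>.exists_bound_of_continuousOn
      (hX.continuousOn.mono (prod_mono (Icc_subset_Ico_right ht.2) subset_rfl))
  have hsl : ∀ (g : ℝ → ℝ → ℝ), Smooth2 (Ico 0 1) (Icc 0 L) g → ∀ z ∈ Icc 0 L,
      ContinuousOn (fun r => g r z) (uIcc 0 t) := fun g hg z hz => by
    rw [uIcc_of_le ht.1]
    exact (hg.slice_t hz).continuousOn.mono (Icc_subset_Ico_right ht.2)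
  refine (intervalIntegral.hasDerivAt_integral_of_dominated_loc_of_deriv_le
    (F := fun z r => f r z) (F' := fun z r => pdX (Ico 0 1) (Icc 0 L) f r z)
    (bound := fun _ => B) (Ioo_mem_nhds hx.1 hx.2) ?_
    ((hsl f hf x (Ioo_subset_Icc_self hx)).intervalIntegrable)
    (((hsl _ hX x (Ioo_subset_Icc_self hx)).mono uIoc_subset_uIcc).aestronglyMeasurable
      measurableSet_uIoc) ?_ intervalIntegrable_const ?_).2
  · filter_upwards [Ioo_mem_nhds hx.1 hx.2] with z hz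
    exact ((hsl f hf z (Ioo_subset_Icc_self hz)).mono uIoc_subset_uIcc).aestronglyMeasurable
      measurableSet_uIoc
  · refine Eventually.of_forall fun r hr z hz => hB (r, z) ⟨?_, Ioo_subset_Icc_self hz⟩
    rw [uIoc_of_le ht.1] at hr
    exact Ioc_subset_Icc_self hr
  · refine Eventually.of_forall fun r hr z hz => ?_
    rw [uIoc_of_le ht.1] at hr
    exact hf.hasDerivAt_x ⟨hr.1.le, hr.2.trans_lt ht.2⟩ (Icc_mem_nhds hz.1 hz.2)

theorem int_refS (σ : Shrinker) {L t x : ℝ} (ht : t ∈ Ico (0:ℝ) 1) (hx : x ∈ Ioo 0 L) :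
    (∫ r in (0:ℝ)..t, refS σ L r x)
      = outPot σ L 1 x - outPot σ L (Real.sqrt (1 - t)) x := by
  have key := integral_eq_sub_of_hasDerivAt
    (f := fun r => -outPot σ L (Real.sqrt (1 - r)) x) (f' := fun r => refS σ L r x)
    (a := 0) (b := t) ?_ ?_
  · simp only [sub_zero, Real.sqrt_one] at key
    linarith
  · intro r hr
    rw [uIcc_of_le ht.1] at hr
    have hr1 : r < 1 := hr.2.trans_lt ht.2
    have hk : 0 < Real.sqrt (1 - r) := Real.sqrt_pos.2 (by linarith)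
    have hs : HasDerivAt (fun v => Real.sqrt (1 - v)) (-1 / (2 * Real.sqrt (1 - r))) r :=
      ((hasDerivAt_id r).const_sub 1).sqrt (by simp only [id]; linarith)
    have hdiv : HasDerivAt (fun v => x / Real.sqrt (1 - v))
        (x / (2 * Real.sqrt (1 - r) ^ 3)) r := by
      refine ((hasDerivAt_const r x).div hs hk.ne').congr_deriv ?_
      field_simp; ring
    have hD := (hasDerivAt_Dcor σ (div_pos hx.1 hk)).comp r hdiv
    refine ((hs.mul hD).const_mul (chiL L x)).neg.congr_deriv ?_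
    simp only [refS, Function.comp_def]
    have hx0 : x ≠ 0 := hx.1.ne'
    field_simp
    ring_nf
  · refine (((refS_smooth σ L).slice_t (Ioo_subset_Icc_self hx)).continuousOn.mono ?_).intervalIntegrable
    rw [uIcc_of_le ht.1]
    exact Icc_subset_Ico_right ht.2

theorem deriv_deriv_congr {f g : ℝ → ℝ} {x : ℝ} (h : f =ᶠ[𝓝 x] g) :
    deriv (deriv f) x = deriv (deriv g) x :=
  h.deriv.deriv_eq

theorem int_scal_dd (hL : 0 < L) (h : IsFlow L 1 φ₀ φ) {t x : ℝ} (ht : t ∈ Ico (0:ℝ) 1)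
    (hx : x ∈ Ioo 0 L) :
    deriv (deriv fun z => ∫ r in (0:ℝ)..t, scalExt L φ r z) x = 1 / φ₀ x - 1 / φ t x := by
  set I := Ico (0:ℝ) 1
  set J := Icc (0:ℝ) L
  have hu1 : UniqueDiffOn ℝ I := uniqueDiffOn_Ico 0 1
  have hu2 : UniqueDiffOn ℝ J := uniqueDiffOn_Icc hL
  have hS : Smooth2 I J (scalExt L φ) :=
    (scalExt_smooth2 hL h).mono (prod_mono Ico_subset_Icc_self subset_rfl)
  have h1 : deriv (fun z => ∫ r in (0:ℝ)..t, scalExt L φ r z) =ᶠ[𝓝 x]
      fun z => ∫ r in (0:ℝ)..t, pdX I J (scalExt L φ) r z := by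
    filter_upwards [Ioo_mem_nhds hx.1 hx.2] with z hz
    exact (hasDerivAt_spaceInt hL hS ht hz).deriv
  rw [h1.deriv_eq, (hasDerivAt_spaceInt hL (hS.pdX hu1 hu2) ht hx).deriv]
  have hxJ : x ∈ J := Ioo_subset_Icc_self hx
  have hpos : ∀ r ∈ Icc (0:ℝ) 1, 0 < φ r x := fun r hr => (h.profile r hr).pos x hx
  have hc : ContinuousOn (fun r => 1 / φ r x) (Icc 0 t) :=
    continuousOn_const.div ((((flow_smooth2 h).slice_t hxJ).continuousOn).mono
      (Icc_subset_Icc_right ht.2.le)) fun r hr => (hpos r ⟨hr.1, hr.2.trans ht.2.le⟩).ne'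
  have key := integral_eq_sub_of_hasDerivAt_of_le (f := fun r => -(1 / φ r x))
    (f' := fun r => pdX I J (pdX I J (scalExt L φ)) r x) ht.1 hc.neg ?_ ?_
  · rw [key, h.initial x hxJ]; ring
  · intro r hr
    have hr1 : r < 1 := hr.2.trans ht.2
    have hrI : r ∈ I := ⟨hr.1.le, hr1⟩
    have hrc : r ∈ Icc (0:ℝ) 1 := ⟨hr.1.le, hr1.le⟩
    have hd := (flow_smooth2 h).hasDerivAt_t (Icc_mem_nhds hr.1 hr1) hxJ
    have hval : pdT (Icc 0 1) (Icc 0 L) φ r x
        = φ r x ^ 2 * pdX I J (pdX I J (scalExt L φ)) r x := by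
      rw [← hd.deriv, h.eqn r ⟨hr.1, hr1⟩ x hx, ← hS.deriv2_x hu1 hu2 hrI (Icc_mem_nhds hx.1 hx.2)]
      congr 1
      apply deriv_deriv_congr
      filter_upwards [Ioo_mem_nhds hx.1 hx.2] with z hz
      exact scalExt_eq hL h hrc hz
    refine ((hasDerivAt_const r (1:ℝ)).div hd (hpos r hrc).ne').neg.congr_deriv ?_
    rw [hval]
    field_simp [(hpos r hrc).ne']
    ring
  · refine ((((hS.pdX hu1 hu2).pdX hu1 hu2).slice_t hxJ).continuousOn.mono ?_).intervalIntegrable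
    rw [uIcc_of_le ht.1]
    exact Icc_subset_Ico_right ht.2

theorem dst_sub {f g : ℝ → ℝ} {x : ℝ} (hf : ContDiffAt ℝ 2 f x) (hg : ContDiffAt ℝ 2 g x) :
    dst (fun z => f z - g z) x = dst f x - dst g x := by
  have hf' : ContDiffAt ℝ 2 (fun z => z ^ 7 * f z) x := (contDiffAt_id.pow 7).mul hf
  have hg' : ContDiffAt ℝ 2 (fun z => z ^ 7 * g z) x := (contDiffAt_id.pow 7).mul hg
  have e : deriv (fun z => z ^ 7 * (f z - g z)) =ᶠ[𝓝 x]
      fun z => deriv (fun v => v ^ 7 * f v) z - deriv (fun v => v ^ 7 * g v) z := by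
    filter_upwards [hf'.eventually (by simp), hg'.eventually (by simp)] with z a b
    rw [← deriv_fun_sub (a.differentiableAt (by simp)) (b.differentiableAt (by simp))]
    simp only [mul_sub]
  unfold dst
  rw [e.deriv_eq, deriv_fun_sub, sub_div]
  · exact (hf'.derivWithin (m := 1) (by norm_num)).differentiableAt (by simp)
  · exact (hg'.derivWithin (m := 1) (by norm_num)).differentiableAt (by simp)

theorem dst_congr {f g : ℝ → ℝ} {x : ℝ} (h : f =ᶠ[𝓝 x] g) : dst f x = dst g x := by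
  unfold dst
  rw [deriv_deriv_congr (f := fun z => z ^ 7 * f z) (g := fun z => z ^ 7 * g z)
    (h.mono fun z hz => by simp [hz])]

theorem contDiffAt_slice {f : ℝ → ℝ → ℝ} {I : Set ℝ} (hf : Smooth2 I (Icc 0 L) f) {t x : ℝ}
    (ht : t ∈ I) (hx : x ∈ Ioo 0 L) : ContDiffAt ℝ 2 (f t) x :=
  ((hf.slice_x ht).contDiffAt (Icc_mem_nhds hx.1 hx.2)).of_le (WithTop.coe_le_coe.2 le_top)

/-- The reference flow has a relative potential. -/
theorem relPot (href : Middle.RefTarget) : RelPotTarget := by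
  intro σ
  obtain ⟨L₀, C, hL₀, _, hR⟩ := href σ
  refine ⟨L₀, hL₀, fun L hL φ₀ p φ hflow hp hp2 => ?_⟩
  have hLpos : 0 < L := hL₀.trans_le hL
  obtain ⟨href1, href2, -⟩ := hR L hL
  have hu1 : UniqueDiffOn ℝ (Ico (0:ℝ) 1) := uniqueDiffOn_Ico 0 1
  have hu2 : UniqueDiffOn ℝ (Icc (0:ℝ) L) := uniqueDiffOn_Icc hLpos
  set w : ℝ → ℝ → ℝ := fun t x => p x + t * ∫ u in (0:ℝ)..1, srcW σ L φ (u * t) x with hw
  have hsrc : Smooth2 (Ico 0 1) (Icc 0 L) (srcW σ L φ) := srcW_smooth hLpos hflow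
  have hwS : Smooth2 (Ico 0 1) (Icc 0 L) w :=
    (hp.comp_contDiffOn contDiffOn_snd).add (timeInt_smooth hLpos hsrc)
  have hsec : ∀ t ∈ Ico (0:ℝ) 1, ∀ x ∈ Ioo 0 L,
      deriv (deriv (w t)) x = 1 / φ t x - 1 / phiRef σ L t x := by
    intro t ht x hx
    have h1 : 0 < Real.sqrt (1 - t) := Real.sqrt_pos.2 (sub_pos.2 ht.2)
    have hScal : Smooth2 (Ico 0 1) (Icc 0 L) (scalExt L φ) :=
      (scalExt_smooth2 hLpos hflow).mono (prod_mono Ico_subset_Icc_self subset_rfl)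
    set G : ℝ → ℝ := fun z => ∫ r in (0:ℝ)..t, scalExt L φ r z with hG
    have e : w t =ᶠ[𝓝 x] fun z =>
        p z + outPot σ L 1 z - outPot σ L (Real.sqrt (1 - t)) z - G z := by
      filter_upwards [Ioo_mem_nhds hx.1 hx.2] with z hz
      simp only [hw, hG, srcW]
      rw [timeInt_eq (fun r v => refS σ L r v - scalExt L φ r v), intervalIntegral.integral_sub,
        int_refS σ ht hz]
      · ring
      · refine (((refS_smooth σ L).slice_t (Ioo_subset_Icc_self hz)).continuousOn.mono ?_).intervalIntegrable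
        rw [uIcc_of_le ht.1]; exact Icc_subset_Ico_right ht.2
      · refine ((hScal.slice_t (Ioo_subset_Icc_self hz)).continuousOn.mono ?_).intervalIntegrable
        rw [uIcc_of_le ht.1]; exact Icc_subset_Ico_right ht.2
    have hp' : ContDiffAt ℝ 2 p x := hp.contDiffAt.of_le (WithTop.coe_le_coe.2 le_top)
    have ho : ∀ r, 0 < r → ContDiffAt ℝ 2 (outPot σ L r) x := fun r hr =>
      (contDiffAt_outPot σ hr hx.1).of_le (WithTop.coe_le_coe.2 le_top)
    have hGs : ContDiffAt ℝ 2 G x := by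
      refine (contDiffAt_slice (f := fun r z => r * ∫ u in (0:ℝ)..1, scalExt L φ (u * r) z)
        (timeInt_smooth hLpos hScal) ht hx).congr_of_eventuallyEq ?_
      exact Eventually.of_forall fun z => (timeInt_eq _ t z).symm
    have e2 : deriv (fun z => p z + outPot σ L 1 z - outPot σ L (Real.sqrt (1 - t)) z - G z)
        =ᶠ[𝓝 x] fun z => deriv p z + deriv (outPot σ L 1) z
          - deriv (outPot σ L (Real.sqrt (1 - t))) z - deriv G z := by
      filter_upwards [hp'.eventually (by simp), (ho 1 one_pos).eventually (by simp),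
        (ho _ h1).eventually (by simp), hGs.eventually (by simp)] with z a b c d
      have a' := (a.differentiableAt (by simp)).hasDerivAt
      have b' := (b.differentiableAt (by simp)).hasDerivAt
      have c' := (c.differentiableAt (by simp)).hasDerivAt
      have d' := (d.differentiableAt (by simp)).hasDerivAt
      exact (((a'.add b').sub c').sub d').deriv
    rw [deriv_deriv_congr e, e2.deriv_eq]
    have dd : ∀ {f : ℝ → ℝ}, ContDiffAt ℝ 2 f x → HasDerivAt (deriv f) (deriv (deriv f) x) x :=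
      fun hf => ((hf.derivWithin (m := 1) (by norm_num)).differentiableAt (by simp)).hasDerivAt
    refine ((((dd hp').add (dd (ho 1 one_pos))).sub (dd (ho _ h1))).sub (dd hGs)).deriv.trans ?_
    have r0 := one_div_phiRef σ (L := L) (zero_lt_one' ℝ) hx
    rw [sub_zero, Real.sqrt_one] at r0
    have rt := one_div_phiRef σ (L := L) ht.2 hx
    rw [hp2 x hx, r0, rt, hG, int_scal_dd hLpos hflow ht hx]
    ring
  refine ⟨w, ⟨⟨hwS, ?_⟩, hsec⟩, fun x hx => by simp [hw]⟩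
  intro t ht x hx
  have htI : t ∈ Ico (0:ℝ) 1 := Ioo_subset_Ico_self ht
  have htc : t ∈ Icc (0:ℝ) 1 := Ioo_subset_Icc_self ht
  have hdw : deriv (fun r => w r x) t = refS σ L t x - scal (φ t) x := by
    have e : (fun r => w r x) = fun r => p x + ∫ v in (0:ℝ)..r, srcW σ L φ v x := by
      funext r; simp only [hw]; rw [timeInt_eq]
    rw [e, ((hasDerivAt_timeInt hsrc ht (Ioo_subset_Icc_self hx)).const_add (p x)).deriv,
      scalExt_eq hLpos hflow htc hx]
    rfl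
  rw [hdw]
  have e : (fun z => φ t z * phiRef σ L t z * deriv (deriv (w t)) z) =ᶠ[𝓝 x]
      fun z => phiRef σ L t z - φ t z := by
    filter_upwards [Ioo_mem_nhds hx.1 hx.2] with z hz
    rw [hsec t htI z hz]
    have h1 := (hflow.profile t htc).pos z hz
    have h2 := (href1 t htI).pos z hz
    field_simp [h1.ne', h2.ne']
  rw [dst_congr e, dst_sub (contDiffAt_slice href2 htI hx)
    (contDiffAt_slice (flow_smooth2 hflow) htc hx)]
  unfold fRef scal dst
  ring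

end Vale.Agent.P264.Dict
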