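import Vale.Agent.P264.Dict.RelPot

/-!
The difference of two relative potentials solves the homogeneous equation.
-/

namespace Vale.Agent.P264.Dict

open Set Filter
open scoped ContDiff Topology
open Calc

theorem deriv_deriv_sub {f g : ℝ → ℝ} {x : ℝ} (hf : ContDiffAt ℝ 2 f x) (hg : ContDiffAt ℝ 2 g x) :
    deriv (deriv fun z => f z - g z) x = deriv (deriv f) x - deriv (deriv g) x := by
  have e : deriv (fun z => f z - g z) =ᶠ[𝓝 x] fun z => deriv f z - deriv g z := by
    filter_upwards [hf.eventually (by simp), hg.eventually (by simp)] with z a b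
    exact deriv_fun_sub (a.differentiableAt (by simp)) (b.differentiableAt (by simp))
  rw [e.deriv_eq, deriv_fun_sub]
  · exact (hf.derivWithin (m := 1) (by norm_num)).differentiableAt (by simp)
  · exact (hg.derivWithin (m := 1) (by norm_num)).differentiableAt (by simp)

/-- The difference of two relative potentials has coefficient `φ₁ φ₂` and no forcing. -/
theorem diffPot : DiffPotTarget := by
  intro σ L φ₁ φ₂ w₁ w₂ φ₀₁ φ₀₂ hL h₁ h₂ hrs hrp hw₁ hw₂
  refine ⟨hw₁.pot.smooth.sub hw₂.pot.smooth, fun t ht x hx => ?_⟩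
  have htI : t ∈ Ico (0:ℝ) 1 := Ioo_subset_Ico_self ht
  have htc : t ∈ Icc (0:ℝ) 1 := Ioo_subset_Icc_self ht
  have hI : Ico (0:ℝ) 1 ∈ 𝓝 t := Ico_mem_nhds ht.1 ht.2
  have hxc : x ∈ Icc 0 L := Ioo_subset_Icc_self hx
  have d₁ := (Smooth2.hasDerivAt_t (f := w₁) hw₁.pot.smooth hI hxc).differentiableAt
  have d₂ := (Smooth2.hasDerivAt_t (f := w₂) hw₂.pot.smooth hI hxc).differentiableAt
  rw [deriv_fun_sub d₁ d₂, hw₁.pot.eqn t ht x hx, hw₂.pot.eqn t ht x hx]
  have hr : ContDiffAt ℝ 2 (phiRef σ L t) x := contDiffAt_slice hrs htI hx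
  have hf₁ : ContDiffAt ℝ 2 (φ₁ t) x := contDiffAt_slice h₁.smooth htc hx
  have hf₂ : ContDiffAt ℝ 2 (φ₂ t) x := contDiffAt_slice h₂.smooth htc hx
  have e₁ : (fun z => φ₁ t z * phiRef σ L t z * deriv (deriv (w₁ t)) z) =ᶠ[𝓝 x]
      fun z => phiRef σ L t z - φ₁ t z := by
    filter_upwards [Ioo_mem_nhds hx.1 hx.2] with z hz
    rw [hw₁.second t htI z hz]
    have ha := (h₁.profile t htc).pos z hz
    have hb := hrp t htI z hz
    field_simp [ha.ne', hb.ne']
  have e₂ : (fun z => φ₂ t z * phiRef σ L t z * deriv (deriv (w₂ t)) z) =ᶠ[𝓝 x]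
      fun z => phiRef σ L t z - φ₂ t z := by
    filter_upwards [Ioo_mem_nhds hx.1 hx.2] with z hz
    rw [hw₂.second t htI z hz]
    have ha := (h₂.profile t htc).pos z hz
    have hb := hrp t htI z hz
    field_simp [ha.ne', hb.ne']
  have e : (fun z => φ₁ t z * φ₂ t z * deriv (deriv fun v => w₁ t v - w₂ t v) z) =ᶠ[𝓝 x]
      fun z => φ₂ t z - φ₁ t z := by
    filter_upwards [Ioo_mem_nhds hx.1 hx.2] with z hz
    rw [deriv_deriv_sub (contDiffAt_slice hw₁.pot.smooth htI hz)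
      (contDiffAt_slice hw₂.pot.smooth htI hz), hw₁.second t htI z hz, hw₂.second t htI z hz]
    have ha := (h₁.profile t htc).pos z hz
    have hb := (h₂.profile t htc).pos z hz
    field_simp [ha.ne', hb.ne']
    ring
  rw [dst_congr e₁, dst_congr e₂, dst_congr e, dst_sub hr hf₁, dst_sub hr hf₂, dst_sub hf₂ hf₁]
  ring

end Vale.Agent.P264.Dict
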