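import Vale.Agent.P264.Defs

/-!
The Fubini-Study profile `x (1 - x / L)` is a static flow: the notion of flow is not empty.
-/

namespace Vale.Agent.P264.Dict

open Set
open scoped ContDiff

theorem isProfile_fs {L : ℝ} (hL : 0 < L) : IsProfile L fun x => x * (1 - x / L) := by
  have hd : ∀ x : ℝ, HasDerivAt (fun x => x * (1 - x / L)) (1 - 2 * x / L) x := fun x => by
    have h := (hasDerivAt_id x).fun_mul (((hasDerivAt_id x).div_const L).const_sub 1)
    refine h.congr_deriv ?_
    simp only [id]; ring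
  refine ⟨by fun_prop, by simp, by rw [div_self hL.ne']; ring, ?_, ?_, fun x hx => ?_⟩
  · rw [((hd 0).hasDerivWithinAt).derivWithin (uniqueDiffOn_Icc hL 0 (left_mem_Icc.2 hL.le))]
    simp
  · rw [((hd L).hasDerivWithinAt).derivWithin (uniqueDiffOn_Icc hL L (right_mem_Icc.2 hL.le))]
    field_simp; ring
  · exact mul_pos hx.1 (sub_pos.2 ((div_lt_one hL).2 hx.2))

/-- The scalar curvature of the Fubini-Study profile is constant. -/
theorem scal_fs {L x : ℝ} (hx : x ≠ 0) :
    scal (fun y => y * (1 - y / L)) x = 72 / L := by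
  have e : (fun y : ℝ => y ^ 7 * (y * (1 - y / L))) = fun y => y ^ 8 - y ^ 9 / L := by
    funext y; ring
  have e1 : deriv (fun y : ℝ => y ^ 8 - y ^ 9 / L) = fun y => 8 * y ^ 7 - 9 * y ^ 8 / L := by
    funext y
    have h := (hasDerivAt_pow 8 y).fun_sub ((hasDerivAt_pow 9 y).div_const L)
    simpa using h.deriv
  have h := ((hasDerivAt_pow 7 x).const_mul (8:ℝ)).fun_sub
    (((hasDerivAt_pow 8 x).const_mul (9:ℝ)).div_const L)
  rw [scal, e, e1, h.deriv]
  push_cast
  rcases eq_or_ne L 0 with rfl | hL <;> field_simp <;> ring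

/-- The static Fubini-Study flow. -/
theorem isFlow_fs {L : ℝ} (hL : 0 < L) (T : ℝ) :
    IsFlow L T (fun x => x * (1 - x / L)) (fun _ x => x * (1 - x / L)) := by
  refine ⟨?_, fun _ _ => rfl, fun _ _ => isProfile_fs hL, fun t _ x hx => ?_⟩
  · have h : ContDiff ℝ ∞ fun p : ℝ × ℝ => p.2 * (1 - p.2 / L) := by fun_prop
    exact h.contDiffOn
  have e : deriv (scal fun y => y * (1 - y / L)) =ᶠ[nhds x] fun _ => (0:ℝ) := by
    filter_upwards [Ioi_mem_nhds hx.1] with y hy
    have e' : (scal fun z => z * (1 - z / L)) =ᶠ[nhds y] fun _ => 72 / L := by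
      filter_upwards [Ioi_mem_nhds hy] with z hz
      exact scal_fs (ne_of_gt hz)
    rw [e'.deriv_eq, deriv_const]
  rw [deriv_const, e.deriv_eq, deriv_const, mul_zero]

end Vale.Agent.P264.Dict
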