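import Vale.Agent.P264.Dict.Snap
import Vale.Agent.P264.Middle.SliceInt

/-!
Derivative of the weighted norms of snapshots: substitute `y = exp (r/2) x` and differentiate
under the integral sign on the fixed interval `[0, L]`.
-/

namespace Vale.Agent.P264.Dict

open Set Filter MeasureTheory
open scoped ContDiff Topology
open Calc

theorem contDiff_rho (j : ℕ) : ContDiff ℝ ∞ (rho j) := by
  unfold rho
  exact (contDiff_id.pow 3).div ((contDiff_const.add (contDiff_id.pow 2)).pow j)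
    fun y => (pow_pos (by positivity : (0:ℝ) < 1 + y ^ 2) j).ne'

theorem hasDerivAt_rho (j : ℕ) (y : ℝ) :
    HasDerivAt (rho j)
      (3 * y ^ 2 / (1 + y ^ 2) ^ j - 2 * j * y ^ 4 / (1 + y ^ 2) ^ (j + 1)) y := by
  have h0 : (1 + y ^ 2) ≠ 0 := by positivity
  have h1 : HasDerivAt (fun z : ℝ => (1 + z ^ 2) ^ j)
      (j * (1 + y ^ 2) ^ (j - 1) * (2 * y)) y := by
    simpa using ((hasDerivAt_pow 2 y).const_add 1).fun_pow j
  have h2 := (hasDerivAt_pow 3 y).fun_div h1 (pow_ne_zero j h0)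
  refine h2.congr_deriv ?_
  cases j with
  | zero => simp
  | succ n =>
    push_cast
    field_simp
    ring

/-- An integral over the rescaled interval, pulled back to `[0, L]`. -/
theorem integral_rescale {L s : ℝ} (hL : 0 < L) {A a : ℝ → ℝ}
    (h : ∀ x ∈ Ioo 0 L, Real.exp (s / 2) * A (Real.exp (s / 2) * x) = a x) :
    ∫ y in (0:ℝ)..Ys L s, A y = ∫ x in (0:ℝ)..L, a x := by
  have h1 := intervalIntegral.mul_integral_comp_mul_left (a := 0) (b := L) (f := A)
    (c := Real.exp (s / 2))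
  rw [mul_zero, mul_comm (Real.exp (s / 2)) L] at h1
  rw [Ys, ← h1, ← intervalIntegral.integral_const_mul]
  refine intervalIntegral.integral_congr_ae ?_
  filter_upwards [Measure.ae_ne volume L] with x hx hx'
  rw [uIoc_of_le hL.le] at hx'
  exact h x ⟨hx'.1, lt_of_le_of_ne hx'.2 hx⟩

/-- The weighted norm after substitution: the integrand on `[0, L]`. -/
noncomputable def slab (j : ℕ) (l : ℝ) (κ : ℝ → ℝ) (w : ℝ → ℝ → ℝ) (r x : ℝ) : ℝ :=
  Real.exp (r / 2) * (κ (Real.exp (r / 2) * x * Real.exp (-l * r)) ^ 8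
    * rho j (Real.exp (r / 2) * x) * (Real.exp (r / 2) * w (tof r) x) ^ 2)

theorem grow_shrink (r x : ℝ) : Real.exp (-r / 2) * (Real.exp (r / 2) * x) = x := by
  rw [← mul_assoc, ← Real.exp_add, neg_div, neg_add_cancel, Real.exp_zero, one_mul]

theorem snap_grow (w : ℝ → ℝ → ℝ) (r x : ℝ) :
    snap w r (Real.exp (r / 2) * x) = Real.exp (r / 2) * w (tof r) x := by
  rw [snap, grow_shrink]

theorem grow_mem {L s x : ℝ} (hx : x ∈ Ioo 0 L) :
    Real.exp (s / 2) * x ∈ Ioo 0 (Ys L s) := by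
  refine ⟨mul_pos (Real.exp_pos _) hx.1, ?_⟩
  rw [Ys, mul_comm L]
  exact mul_lt_mul_of_pos_left hx.2 (Real.exp_pos _)

theorem smooth2_slab {L : ℝ} {w : ℝ → ℝ → ℝ} (hw : Smooth2 (Ico 0 1) (Icc 0 L) w) (j : ℕ) (l : ℝ)
    {κ : ℝ → ℝ} (hκ : ContDiff ℝ ∞ κ) : Smooth2 (Ici 0) (Icc 0 L) (slab j l κ w) := by
  have hE : ContDiff ℝ ∞ fun p : ℝ × ℝ => Real.exp (p.1 / 2) := by fun_prop
  have hm : ContDiff ℝ ∞ fun p : ℝ × ℝ => (tof p.1, p.2) := by
    unfold tof; fun_prop
  have hwc : ContDiffOn ℝ ∞ (fun p : ℝ × ℝ => w (tof p.1) p.2) (Ici 0 ×ˢ Icc 0 L) := by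
    have := hw.comp (hm.contDiffOn (s := Ici (0:ℝ) ×ˢ Icc (0:ℝ) L))
      (fun p hp => mk_mem_prod (tof_mem_Ico hp.1) hp.2)
    exact this
  have hy : ContDiff ℝ ∞ fun p : ℝ × ℝ => Real.exp (p.1 / 2) * p.2 := by fun_prop
  have hk : ContDiff ℝ ∞ fun p : ℝ × ℝ =>
      κ (Real.exp (p.1 / 2) * p.2 * Real.exp (-l * p.1)) ^ 8 :=
    (hκ.comp (hy.mul (by fun_prop))).pow 8
  exact hE.contDiffOn.mul ((hk.contDiffOn.mul ((contDiff_rho j).comp hy).contDiffOn).mul
    ((hE.contDiffOn.mul hwc).pow 2))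

theorem wsq_eq_slab {L : ℝ} (hL : 0 < L) (j : ℕ) (l : ℝ) (κ : ℝ → ℝ) (w : ℝ → ℝ → ℝ) (r : ℝ) :
    wsq j 8 (fun y => κ (y * Real.exp (-l * r))) (Ys L r) (snap w r)
      = ∫ x in (0:ℝ)..L, slab j l κ w r x :=
  integral_rescale hL fun x _ => by rw [snap_grow]; rfl

/-- Time derivative of the substituted integrand. -/
theorem hasDerivAt_slab {L : ℝ} {w : ℝ → ℝ → ℝ} (hw : Smooth2 (Ico 0 1) (Icc 0 L) w) (j : ℕ)
    (l : ℝ) {κ : ℝ → ℝ} (hκ : ContDiff ℝ ∞ κ) {s x : ℝ} (hs : 0 < s) (hx : x ∈ Icc 0 L) :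
    HasDerivAt (fun r => slab j l κ w r x)
      (Real.exp (s / 2) * (2 * κ (Real.exp (s / 2) * x * Real.exp (-l * s)) ^ 8
            * rho j (Real.exp (s / 2) * x) * (Real.exp (s / 2) * w (tof s) x)
            * (Real.exp (-s / 2) * pdT (Ico 0 1) (Icc 0 L) w (tof s) x))
        + Real.exp (s / 2) * (κ (Real.exp (s / 2) * x * Real.exp (-l * s)) ^ 8
            * rho j (Real.exp (s / 2) * x) * (Real.exp (s / 2) * w (tof s) x) ^ 2
            * ((6 - 2 * j * (Real.exp (s / 2) * x) ^ 2 / (1 + (Real.exp (s / 2) * x) ^ 2)) / 2))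
        + Real.exp (s / 2) * ((4 - 8 * l) * (Real.exp (s / 2) * x)
            * κ (Real.exp (s / 2) * x * Real.exp (-l * s)) ^ 7
            * (deriv κ (Real.exp (s / 2) * x * Real.exp (-l * s)) * Real.exp (-l * s))
            * rho j (Real.exp (s / 2) * x) * (Real.exp (s / 2) * w (tof s) x) ^ 2)) s := by
  set E := Real.exp (s / 2) with hE
  set K := Real.exp (-l * s) with hK
  have dE := hasDerivAt_expHalf s
  have dK : HasDerivAt (fun r => Real.exp (-l * r)) (-l * K) s := by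
    simpa [hK, mul_comm] using ((hasDerivAt_id s).const_mul (-l)).exp
  have dk := ((hκ.differentiable (by simp)) (E * x * K)).hasDerivAt.comp s
    ((dE.mul_const x).fun_mul dK)
  have dr := (hasDerivAt_rho j (E * x)).comp s (dE.mul_const x)
  have dw : HasDerivAt (fun r => w (tof r) x)
      (pdT (Ico 0 1) (Icc 0 L) w (tof s) x * Real.exp (-s)) s :=
    (hw.hasDerivAt_t (Ico_mem_nhds (tof_mem_Ioo hs).1 (tof_mem_Ioo hs).2) hx).comp s
      (hasDerivAt_tof s)
  have main := dE.fun_mul (((dk.fun_pow 8).fun_mul dr).fun_mul ((dE.fun_mul dw).fun_pow 2))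
  refine main.congr_deriv ?_
  have h2 : E * Real.exp (-s) = Real.exp (-s / 2) := by
    rw [hE, ← Real.exp_add]; congr 1; ring
  have h0 : (1 + (E * x) ^ 2) ≠ 0 := by positivity
  simp only [Function.comp_apply, ← hE, ← hK]
  unfold rho
  rw [← h2]
  field_simp
  ring

theorem normDeriv : NormDerivTarget := by
  intro L a f w hL hw j l κ hκ s hs
  have hs' : Smooth2 (Ico (0:ℝ) 1) (Icc 0 L) w := hw.smooth
  have hF := smooth2_slab hs' j l hκ
  have hder := Middle.hasDerivAt_slice_integral hL.le subset_rfl (uniqueDiffOn_Ici 0)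
    (uniqueDiffOn_Icc hL) hF (t := s) (by rw [interior_Ici]; exact hs)
  simp only [← wsq_eq_slab hL] at hder
  refine hder.congr_deriv ?_
  set W := pdT (Ico 0 1) (Icc 0 L) w (tof s) with hW
  have cW : ContinuousOn W (Icc 0 L) :=
    ((hs'.pdT (uniqueDiffOn_Ico 0 1) (uniqueDiffOn_Icc hL)).slice_x
      (tof_mem_Ico hs.le)).continuousOn
  have cw : ContinuousOn (w (tof s)) (Icc 0 L) := (hs'.slice_x (tof_mem_Ico hs.le)).continuousOn
  have cκ : Continuous κ := hκ.continuous
  have cκ' : Continuous (deriv κ) := hκ.continuous_deriv (by simp)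
  have cρ : Continuous (rho j) := (contDiff_rho j).continuous
  have cq : Continuous fun y : ℝ => (6 - 2 * j * y ^ 2 / (1 + y ^ 2)) / 2 :=
    (continuous_const.sub (Continuous.div (by fun_prop) (by fun_prop)
      fun y => by positivity)).div_const 2
  have ck := (cκ.comp (by fun_prop : Continuous fun x : ℝ =>
    Real.exp (s / 2) * x * Real.exp (-l * s))).continuousOn (s := Icc 0 L)
  have ck' := (cκ'.comp (by fun_prop : Continuous fun x : ℝ =>
    Real.exp (s / 2) * x * Real.exp (-l * s))).continuousOn (s := Icc 0 L)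
  have cy : Continuous fun x : ℝ => Real.exp (s / 2) * x := by fun_prop
  have cr := (cρ.comp cy).continuousOn (s := Icc 0 L)
  have cq' := (cq.comp cy).continuousOn (s := Icc 0 L)
  have cV := (continuousOn_const (c := Real.exp (s / 2))).mul cw
  have c1 := (continuousOn_const (c := Real.exp (s / 2))).mul
    ((((continuousOn_const (c := (2:ℝ))).mul (ck.pow 8)).mul cr).mul cV |>.mul
      ((continuousOn_const (c := Real.exp (-s / 2))).mul cW))
  have c2 := (continuousOn_const (c := Real.exp (s / 2))).mul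
    ((((ck.pow 8).mul cr).mul (cV.pow 2)).mul cq')
  have c3 := (continuousOn_const (c := Real.exp (s / 2))).mul
    ((((((continuousOn_const (c := 4 - 8 * l)).mul cy.continuousOn).mul (ck.pow 7)).mul
      (ck'.mul (continuousOn_const (c := Real.exp (-l * s))))).mul cr).mul (cV.pow 2))
  rw [integral_rescale hL (a := fun x => Real.exp (s / 2)
        * (2 * κ (Real.exp (s / 2) * x * Real.exp (-l * s)) ^ 8
          * rho j (Real.exp (s / 2) * x) * (Real.exp (s / 2) * w (tof s) x)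
          * (Real.exp (-s / 2) * W x))) ?_,
    integral_rescale hL (a := fun x => Real.exp (s / 2)
        * (κ (Real.exp (s / 2) * x * Real.exp (-l * s)) ^ 8
          * rho j (Real.exp (s / 2) * x) * (Real.exp (s / 2) * w (tof s) x) ^ 2
          * ((6 - 2 * j * (Real.exp (s / 2) * x) ^ 2
              / (1 + (Real.exp (s / 2) * x) ^ 2)) / 2))) ?_,
    integral_rescale hL (a := fun x => Real.exp (s / 2) * ((4 - 8 * l) * (Real.exp (s / 2) * x)
          * κ (Real.exp (s / 2) * x * Real.exp (-l * s)) ^ 7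
          * (deriv κ (Real.exp (s / 2) * x * Real.exp (-l * s)) * Real.exp (-l * s))
          * rho j (Real.exp (s / 2) * x) * (Real.exp (s / 2) * w (tof s) x) ^ 2)) ?_,
    ← intervalIntegral.integral_add, ← intervalIntegral.integral_add]
  · refine intervalIntegral.integral_congr_ae (Eventually.of_forall fun x hx => ?_)
    rw [uIoc_of_le hL.le] at hx
    have hd := hF.hasDerivAt_t (Ici_mem_nhds hs) (Ioc_subset_Icc_self hx)
    exact hd.unique (hasDerivAt_slab hs' j l hκ hs (Ioc_subset_Icc_self hx))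
  iterate 4
    · apply ContinuousOn.intervalIntegrable
      rw [uIcc_of_le hL.le]
      first | exact (c1.add c2) | exact c1 | exact c2 | exact c3
  · intro x hx
    simp only [snap_grow]
  · intro x hx
    simp only [snap_grow]
  · intro x hx
    rw [(hasDerivAt_snap hs' hs (grow_mem hx)).deriv, grow_shrink,
      hs'.deriv_t (Ico_mem_nhds (tof_mem_Ioo hs).1 (tof_mem_Ioo hs).2) (Ioo_subset_Icc_self hx),
      snap_grow]
    simp only [add_sub_cancel_left, hW]

end Vale.Agent.P264.Dict
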