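import Vale.Agent.P264.Dict.Targets
import Vale.Agent.P264.Calc.Slices

/-!
The rescaled equation.
-/

namespace Vale.Agent.P264.Dict

open Set Filter
open scoped ContDiff Topology
open Calc

theorem hasDerivAt_tof (s : ℝ) : HasDerivAt tof (Real.exp (-s)) s := by
  have h : HasDerivAt (fun r : ℝ => 1 - Real.exp (-r)) (Real.exp (-s)) s := by
    simpa using ((hasDerivAt_neg s).exp).const_sub 1
  exact h

theorem hasDerivAt_expHalf (s : ℝ) :
    HasDerivAt (fun r => Real.exp (r / 2)) (Real.exp (s / 2) / 2) s := by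
  simpa [div_eq_mul_inv, mul_comm] using ((hasDerivAt_id s).div_const 2).exp

theorem tof_mem_Ico {s : ℝ} (hs : 0 ≤ s) : tof s ∈ Ico (0:ℝ) 1 := by
  constructor
  · unfold tof; linarith [Real.exp_le_one_iff.2 (neg_nonpos.2 hs)]
  · unfold tof; linarith [Real.exp_pos (-s)]

theorem tof_mem_Ioo {s : ℝ} (hs : 0 < s) : tof s ∈ Ioo (0:ℝ) 1 := by
  constructor
  · unfold tof; linarith [Real.exp_lt_one_iff.2 (neg_neg_iff_pos.2 hs)]
  · unfold tof; linarith [Real.exp_pos (-s)]

theorem shrink_mem {L s y : ℝ} (hy : y ∈ Ioo 0 (Ys L s)) :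
    Real.exp (-s / 2) * y ∈ Ioo 0 L := by
  have h : Real.exp (-s / 2) * Real.exp (s / 2) = 1 := by
    rw [← Real.exp_add, neg_div, neg_add_cancel, Real.exp_zero]
  refine ⟨mul_pos (Real.exp_pos _) hy.1, ?_⟩
  calc Real.exp (-s / 2) * y < Real.exp (-s / 2) * Ys L s :=
        mul_lt_mul_of_pos_left hy.2 (Real.exp_pos _)
    _ = L := by rw [Ys, mul_left_comm, h, mul_one]

/-- Space derivative of a snapshot. -/
theorem deriv_snap (w : ℝ → ℝ → ℝ) (s y : ℝ) :
    deriv (snap w s) y = deriv (w (tof s)) (Real.exp (-s / 2) * y) := by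
  have h : Real.exp (s / 2) * Real.exp (-s / 2) = 1 := by
    rw [← Real.exp_add, neg_div, add_neg_cancel, Real.exp_zero]
  show deriv (fun z => Real.exp (s / 2) * w (tof s) (Real.exp (-s / 2) * z)) y = _
  rw [deriv_const_mul_field, deriv_comp_mul_left (f := w (tof s)), smul_eq_mul, ← mul_assoc, h,
    one_mul]

/-- Second space derivative of a snapshot. -/
theorem deriv2_snap (w : ℝ → ℝ → ℝ) (s y : ℝ) :
    deriv (deriv (snap w s)) y
      = Real.exp (-s / 2) * deriv (deriv (w (tof s))) (Real.exp (-s / 2) * y) := by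
  have e : deriv (snap w s) = fun z => deriv (w (tof s)) (Real.exp (-s / 2) * z) :=
    funext (deriv_snap w s)
  rw [e, deriv_comp_mul_left (f := deriv (w (tof s))), smul_eq_mul]

/-- Time derivative of a snapshot at fixed `y`, minus transport. -/
theorem hasDerivAt_snap {L : ℝ} {w : ℝ → ℝ → ℝ} (hw : Smooth2 (Ico 0 1) (Icc 0 L) w) {s y : ℝ}
    (hs : 0 < s) (hy : y ∈ Ioo 0 (Ys L s)) :
    HasDerivAt (fun r => snap w r y)
      (drift (snap w s) y
        + Real.exp (-s / 2) * deriv (fun r => w r (Real.exp (-s / 2) * y)) (tof s)) s := by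
  set x := Real.exp (-s / 2) * y with hx
  set t := tof s with ht
  have htI : t ∈ Ioo (0:ℝ) 1 := tof_mem_Ioo hs
  have hxI : x ∈ Ioo 0 L := shrink_mem hy
  have hS : Ico (0:ℝ) 1 ×ˢ Icc (0:ℝ) L ∈ 𝓝 (t, x) :=
    prod_mem_nhds (Ico_mem_nhds htI.1 htI.2) (Icc_mem_nhds hxI.1 hxI.2)
  have hd : DifferentiableAt ℝ (Function.uncurry w) (t, x) :=
    (hw.contDiffAt hS).differentiableAt (by simp)
  set D := fderiv ℝ (Function.uncurry w) (t, x) with hD
  have hcx : HasDerivAt (fun r => Real.exp (-r / 2) * y) (-(x / 2)) s := by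
    have h := (((hasDerivAt_id s).neg.div_const 2).exp).mul_const y
    refine h.congr_deriv ?_
    simp only [id, hx, Pi.neg_apply]; ring
  have hcomp : HasDerivAt (fun r => w (tof r) (Real.exp (-r / 2) * y))
      (D (Real.exp (-s), -(x / 2))) s := by
    have h := HasFDerivAt.comp_hasDerivAt (l := Function.uncurry w) (l' := D)
      (f := fun r => (tof r, Real.exp (-r / 2) * y)) s hd.hasFDerivAt
      ((hasDerivAt_tof s).prodMk hcx)
    exact h
  have hwt : deriv (fun r => w r x) t = D (1, 0) := by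
    have h := HasFDerivAt.comp_hasDerivAt (l := Function.uncurry w) (l' := D)
      (f := fun r => (r, x)) t hd.hasFDerivAt
      ((hasDerivAt_id t).prodMk (hasDerivAt_const t x))
    exact h.deriv
  have hwx : deriv (w t) x = D (0, 1) := by
    have h := HasFDerivAt.comp_hasDerivAt (l := Function.uncurry w) (l' := D)
      (f := fun r => (t, r)) x hd.hasFDerivAt
      ((hasDerivAt_const x t).prodMk (hasDerivAt_id x))
    exact h.deriv
  have e : D (Real.exp (-s), -(x / 2)) = Real.exp (-s) * D (1, 0) - x / 2 * D (0, 1) := by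
    have h : ((Real.exp (-s), -(x / 2)) : ℝ × ℝ)
        = Real.exp (-s) • ((1:ℝ), (0:ℝ)) + (-(x / 2)) • ((0:ℝ), (1:ℝ)) := by
      ext <;> simp
    rw [h, map_add, map_smul, map_smul, smul_eq_mul, smul_eq_mul]; ring
  have h2 : Real.exp (s / 2) * Real.exp (-s) = Real.exp (-s / 2) := by
    rw [← Real.exp_add]; congr 1; ring
  have h1 : Real.exp (s / 2) * x = y := by
    rw [hx, ← mul_assoc, ← Real.exp_add, neg_div, add_neg_cancel, Real.exp_zero, one_mul]
  refine ((hasDerivAt_expHalf s).mul hcomp).congr_deriv ?_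
  rw [e, hwt, drift, deriv_snap, ← ht, ← hx, hwx]
  simp only [snap, ← ht, ← hx]
  linear_combination (D (1, 0)) * h2 - (D (0, 1) / 2) * h1

/-- `dst` of a rescaled function. -/
theorem dst_scale (g : ℝ → ℝ) (c : ℝ) {r y : ℝ} (hr : r ≠ 0) :
    dst (fun z => c * g (r * z)) y = c * r ^ 2 * dst g (r * y) := by
  have e : (fun z => z ^ 7 * (c * g (r * z)))
      = fun z => c / r ^ 7 * (fun v => v ^ 7 * g v) (r * z) := by
    funext z; field_simp
  unfold dst
  rw [e]
  have e2 : deriv (fun z => c / r ^ 7 * (fun v => v ^ 7 * g v) (r * z))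
      = fun z => c / r ^ 7 * (r * deriv (fun v => v ^ 7 * g v) (r * z)) := by
    funext z
    rw [deriv_const_mul_field, deriv_comp_mul_left (f := fun v => v ^ 7 * g v), smul_eq_mul]
  rw [e2, deriv_const_mul_field, deriv_const_mul_field,
    deriv_comp_mul_left (f := deriv fun v => v ^ 7 * g v), smul_eq_mul]
  by_cases hy : y = 0
  · subst hy; simp
  field_simp

/-- The rescaled equation. -/
theorem snapEqn : SnapEqnTarget := by
  intro L a f w _ hw s hs y hy
  rw [(hasDerivAt_snap hw.smooth hs hy).deriv,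
    hw.eqn (tof s) (tof_mem_Ioo hs) _ (shrink_mem hy)]
  have e : (fun z => Real.exp s * a (tof s) (Real.exp (-s / 2) * z) * deriv (deriv (snap w s)) z)
      = fun z => Real.exp (s / 2) * (fun v => a (tof s) v * deriv (deriv (w (tof s))) v)
          (Real.exp (-s / 2) * z) := by
    funext z
    have h : Real.exp s * Real.exp (-s / 2) = Real.exp (s / 2) := by
      rw [← Real.exp_add]; congr 1; ring
    rw [deriv2_snap]
    linear_combination (a (tof s) (Real.exp (-s / 2) * z)
      * deriv (deriv (w (tof s))) (Real.exp (-s / 2) * z)) * h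
  rw [e, dst_scale (fun v => a (tof s) v * deriv (deriv (w (tof s))) v) _ (Real.exp_ne_zero _)]
  have h : Real.exp (s / 2) * Real.exp (-s / 2) ^ 2 = Real.exp (-s / 2) := by
    rw [pow_two, ← mul_assoc, ← Real.exp_add, neg_div, add_neg_cancel, Real.exp_zero, one_mul]
  rw [h]
  ring

end Vale.Agent.P264.Dict
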